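import Vale.Agent.P173G80.CW
import Vale.Agent.P173F.Ftl
import Vale.Agent.P173F.Tree

/-! The semidirect product acts freely on a product of three trees. -/

set_option linter.all false

namespace Vale.Agent.P173G

open Vale.Agent.P173 Vale.Agent.P173F SemidirectProduct

universe u v

/-- Restriction of the action along a homomorphism. -/
def GT.comap {G H : Type} [Group G] [Group H] (T : GT G) (f : H →* G) : GT H :=
  { T with
    aV := MulAction.compHom _ f
    aE := MulAction.compHom _ f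
    s_smul := fun g => T.s_smul (f g)
    t_smul := fun g => T.t_smul (f g) }

theorem Free.gdLE_of {G H ι : Type} [Group G] [Group H] [Fintype ι] {T : ι → GT G} (h : Free T)
    (f : H →* G) (hf : Function.Injective f) : GdLE.{u, v} H (Fintype.card ι) :=
  Free.gdLE (T := fun c => (T c).comap f) fun g w hw =>
    hf ((h (f g) w hw).trans (map_one f).symm)

/-- The tree of a graph of groups with one vertex. -/
noncomputable def hnn {G J : Type} [Group G] (A : Subgroup G) (B : J → Subgroup G) (x : J → G)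
    (hs : ∀ j, B j ≤ A) (ht : ∀ j, ∀ b ∈ B j, (x j)⁻¹ * b * x j ∈ A)
    (gen : ∀ H : Subgroup G, A ≤ H → (∀ j, x j ∈ H) → ∀ g, g ∈ H)
    (pot : ∀ f : J → G → ℤ, (∀ j g, ∀ b ∈ B j, f j (g * b) = f j g) → ∃ φ : G → ℤ,
      (∀ g, ∀ a ∈ A, φ (g * a) = φ g) ∧ ∀ j g, φ (g * x j) = φ g + f j g) : GT G where
  V := G ⧸ A
  E := Σ j, G ⧸ B j
  s e := Subgroup.quotientMapOfLE (hs e.1) e.2
  t e := Quotient.map' (· * x e.1) (fun g g' h => by
    rw [QuotientGroup.leftRel_apply] at h ⊢
    convert ht _ _ h using 1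
    group) e.2
  s_smul g := by
    rintro ⟨j, ⟨w⟩⟩
    rfl
  t_smul g := by
    rintro ⟨j, ⟨w⟩⟩
    exact congrArg QuotientGroup.mk (mul_assoc g w (x j))
  r := ((1 : G) : G ⧸ A)
  conn P h0 h := by
    let H : Subgroup G :=
      { carrier := {k | ∀ g : G, P ((g * k : G) : G ⧸ A) ↔ P g}
        mul_mem' := fun {a b} ha hb g => by rw [← mul_assoc, hb, ha]
        one_mem' := fun g => by rw [mul_one]
        inv_mem' := fun {a} ha g => by rw [← ha (g * a⁻¹), inv_mul_cancel_right] }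
    rintro ⟨w⟩
    have := gen H (fun a ha g => by rw [QuotientGroup.mk_mul_of_mem g ha])
      (fun j g => (h ⟨j, g⟩).symm) w 1
    rw [one_mul] at this
    exact this.2 h0
  acyc e := by
    classical
    obtain ⟨φ, h1, h2⟩ := pot (fun j g => if (⟨j, g⟩ : Σ j, G ⧸ B j) = e then 1 else 0)
      fun j g b hb => by rw [QuotientGroup.mk_mul_of_mem g hb]
    refine ⟨Quotient.lift φ fun g g' h => ?_, ?_, ?_⟩
    · rw [← h1 g _ (QuotientGroup.leftRel_apply.1 h), mul_inv_cancel_left]
    · obtain ⟨j, w⟩ := e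
      obtain ⟨w, rfl⟩ := QuotientGroup.mk_surjective w
      show φ w ≠ φ (w * x j)
      rw [h2, if_pos rfl]
      omega
    · rintro ⟨j, w⟩ he
      obtain ⟨w, rfl⟩ := QuotientGroup.mk_surjective w
      show φ w = φ (w * x j)
      rw [h2, if_neg he, add_zero]

theorem inv_closure {G Z : Type} [Group G] {S : Set G} {φ : G → Z}
    (h : ∀ a ∈ S, ∀ g, φ (g * a) = φ g) (g a : G) (ha : a ∈ Subgroup.closure S) :
    φ (g * a) = φ g := by
  induction ha using Subgroup.closure_induction generalizing g with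
  | mem a ha => exact h a ha g
  | one => rw [mul_one]
  | mul a b _ _ ha hb => rw [← mul_assoc, hb, ha]
  | inv a _ ha => rw [← ha (g * a⁻¹), inv_mul_cancel_right]

theorem conj_closure {G : Type} [Group G] {S : Set G} {A : Subgroup G} {x : G}
    (h : ∀ a ∈ S, x⁻¹ * a * x ∈ A) (a : G) (ha : a ∈ Subgroup.closure S) : x⁻¹ * a * x ∈ A := by
  have : Subgroup.closure S ≤ A.comap (MulAut.conj x⁻¹).toMonoidHom :=
    (Subgroup.closure_le _).2 fun a ha => by simpa using h a ha
  simpa using this ha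

variable {V : Type} [MulAction Q2 V] (C : Cx V) (ρ : V → Q2) (hρ : ∀ q v, ρ (q • v) = q * ρ v)

/-- The subgroup generated by the vertices in `S`. -/
def P (S : Set V) : Subgroup C.Hat := Subgroup.closure ((fun v => inl (C.gen v)) '' S)

theorem conj_gen (q : Q2) (v : V) :
    (inr q : C.Hat)⁻¹ * inl (C.gen v) * inr q = inl (C.gen (q⁻¹ • v)) := by
  rw [← C.act_gen, inl_aut, inv_inv, map_inv]

theorem mul_gen (a : C.Raag) (q : Q2) (v : V) :
    (⟨a, q⟩ : C.Hat) * inl (C.gen v) = ⟨a * C.gen (q • v), q⟩ :=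
  SemidirectProduct.ext (by rw [mul_left, left_inl, C.act_gen]) (mul_one _)

theorem mul_inr (a : C.Raag) (q q' : Q2) : (⟨a, q⟩ : C.Hat) * inr q' = ⟨a, q * q'⟩ :=
  SemidirectProduct.ext (by rw [mul_left, left_inr, map_one, mul_one]) rfl

theorem conj_P (c : Fin 3) (q : Q2) (a : C.Hat) (ha : a ∈ P C {v | C.col v ≠ c}) :
    (inr q : C.Hat)⁻¹ * a * inr q ∈ P C {v | C.col v ≠ c} := by
  refine conj_closure ?_ a ha
  rintro _ ⟨v, hv, rfl⟩
  rw [conj_gen]
  exact Subgroup.subset_closure ⟨_, by rwa [Set.mem_setOf_eq, C.col_smul], rfl⟩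

/-- The edge groups. -/
def BB (c : Fin 3) : Bool ⊕ {v // C.col v = c ∧ ρ v = 1} → Subgroup C.Hat :=
  Sum.elim (fun _ => P C {v | C.col v ≠ c}) fun v => P C {u | C.adj v.1 u}

/-- The stable letters. -/
def xx (c : Fin 3) : Bool ⊕ {v // C.col v = c ∧ ρ v = 1} → C.Hat :=
  Sum.elim (fun b => inr (FreeGroup.of b)) fun v => inl (C.gen v.1)

theorem BB_le (c : Fin 3) (j) : BB C ρ c j ≤ P C {v | C.col v ≠ c} := by
  rcases j with b | v
  · exact le_rfl
  · exact Subgroup.closure_mono (Set.image_mono fun u hu => v.2.1 ▸ (C.col_ne hu).symm)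

include hρ in
theorem pot (c : Fin 3) (f : Bool ⊕ {v // C.col v = c ∧ ρ v = 1} → C.Hat → ℤ)
    (hf : ∀ j g, ∀ b ∈ BB C ρ c j, f j (g * b) = f j g) : ∃ φ : C.Hat → ℤ,
      (∀ g, ∀ a ∈ P C {v | C.col v ≠ c}, φ (g * a) = φ g) ∧
        ∀ j g, φ (g * xx C ρ c j) = φ g + f j g := by
  classical
  choose Pot hPot using free_potential (B := ℤ)
  let U : C.Raag → Q2 → ℤ := fun a => Pot fun b q => f (.inl b) ⟨a, q⟩
  have hU : ∀ a u, C.col u ≠ c → U (a * C.gen u) = U a := fun a u hu =>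
    congrArg Pot (funext fun b => funext fun q => by
      rw [← hf (.inl b) ⟨a, q⟩ (inl (C.gen (q⁻¹ • u))) (Subgroup.subset_closure
        ⟨_, by rwa [Set.mem_setOf_eq, C.col_smul], rfl⟩), mul_gen, smul_inv_smul])
  let rep : ∀ u, C.col u = c → {v // C.col v = c ∧ ρ v = 1} := fun u hu =>
    ⟨(ρ u)⁻¹ • u, by rwa [C.col_smul], by rw [hρ, inv_mul_cancel]⟩
  let β : V → C.Raag → ℤ := fun u a => if h : C.col u = c then
    f (.inr (rep u h)) ⟨a, ρ u⟩ + U a (ρ u) - U (a * C.gen u) (ρ u) else 0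
  have key : ∀ u w, C.adj u w → C.col u = c → ∀ a, β u (a * C.gen w) = β u a := by
    intro u w h hu a
    have hw : C.col w ≠ c := hu ▸ (C.col_ne h).symm
    simp only [β, dif_pos hu]
    rw [hU a w hw, mul_assoc, ← C.gen_comm h, ← mul_assoc, hU _ w hw,
      ← hf (.inr (rep u hu)) ⟨a, ρ u⟩ (inl (C.gen ((ρ u)⁻¹ • w))) (Subgroup.subset_closure
        ⟨_, C.adj_smul _ h, rfl⟩), mul_gen, smul_inv_smul]
  have zero : ∀ u, C.col u ≠ c → ∀ a, β u a = 0 := fun u hu a => dif_neg hu
  obtain ⟨F, hF⟩ := C.ftl Set.univ β fun u _ w _ h a => by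
    by_cases hu : C.col u = c
    · have hw : C.col w ≠ c := hu ▸ (C.col_ne h).symm
      rw [zero w hw, zero w hw, key u w h hu, add_comm]
    · by_cases hw : C.col w = c
      · rw [zero u hu, zero u hu, key w u (C.symm h) hw, add_comm]
      · rw [zero u hu, zero u hu, zero w hw, zero w hw]
  refine ⟨fun g => F g.left + U g.left g.right, fun g a ha => inv_closure
    (φ := fun g : C.Hat => F g.left + U g.left g.right) ?_ g a ha, ?_⟩
  · rintro _ ⟨w, hw, rfl⟩ ⟨a, q⟩
    have hw' : C.col (q • w) ≠ c := by rwa [C.col_smul]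
    simp only [mul_gen]
    rw [hF _ trivial, zero _ hw', hU _ _ hw', add_zero]
  · rintro (b | ⟨w, hw, hw'⟩) ⟨a, q⟩
    · simp only [xx, Sum.elim_inl, mul_inr, U, hPot, add_assoc]
    · have h1 : C.col (q • w) = c := by rwa [C.col_smul]
      have h2 : ρ (q • w) = q := by rw [hρ, hw', mul_one]
      have h3 : rep _ h1 = ⟨w, hw, hw'⟩ := Subtype.ext (by simp only [rep, h2, inv_smul_smul])
      simp only [xx, Sum.elim_inr, mul_gen]
      rw [hF _ trivial]
      simp only [β, dif_pos h1, h3, h2]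
      ring

/-- The tree of a colour. -/
noncomputable def tree (c : Fin 3) : GT C.Hat :=
  hnn (P C {v | C.col v ≠ c}) (BB C ρ c) (xx C ρ c) (BB_le C ρ c) (by
    rintro (b | v) a ha
    · exact conj_P C c _ a ha
    · refine conj_closure ?_ a ha
      rintro _ ⟨w, hw, rfl⟩
      have : (xx C ρ c (.inr v))⁻¹ * inl (C.gen w) * xx C ρ c (.inr v) = inl (C.gen w) := by
        show (inl (C.gen v.1))⁻¹ * _ * inl (C.gen v.1) = _
        rw [mul_assoc, ← map_mul, ← C.gen_comm hw, map_mul, inv_mul_cancel_left]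
      rw [this]
      exact BB_le C ρ c (.inr v) (Subgroup.subset_closure ⟨w, hw, rfl⟩)) (by
    intro H h1 h2 g
    have h3 : ∀ q : Q2, (inr q : C.Hat) ∈ H := fun q => by
      induction q using FreeGroup.induction_on with
      | C1 => rw [map_one]; exact H.one_mem
      | of b => exact h2 (.inl b)
      | inv_of b ih => rw [map_inv]; exact H.inv_mem ih
      | mul a b ha hb => rw [map_mul]; exact H.mul_mem ha hb
    have h4 : ∀ a : C.Raag, (inl a : C.Hat) ∈ H := C.induction (by rw [map_one]; exact H.one_mem)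
      (fun w => by
        by_cases hw : C.col w = c
        · have h5 := h2 (.inr ⟨(ρ w)⁻¹ • w, by rwa [C.col_smul], by rw [hρ, inv_mul_cancel]⟩)
          have h6 := H.mul_mem (H.mul_mem (H.inv_mem (h3 (ρ w)⁻¹)) h5) (h3 (ρ w)⁻¹)
          rwa [xx, Sum.elim_inr, conj_gen, inv_inv, smul_inv_smul] at h6
        · exact h1 (Subgroup.subset_closure ⟨w, hw, rfl⟩))
      (fun a b ha hb => by rw [map_mul]; exact H.mul_mem ha hb)
      fun a ha => by rw [map_inv]; exact H.inv_mem ha
    rw [← inl_left_mul_inr_right g]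
    exact H.mul_mem (h4 _) (h3 _)) (pot C ρ hρ c)

/-- The retraction that kills a colour. -/
def kill (c : Fin 3) : C.Raag →* C.Raag :=
  C.lift (fun v => if C.col v = c then 1 else C.gen v) fun u v h => by
    split_ifs
    · rfl
    · rw [mul_one, one_mul]
    · rw [mul_one, one_mul]
    · exact C.gen_comm h

theorem kill_gen (c : Fin 3) (v : V) :
    kill C c (C.gen v) = if C.col v = c then 1 else C.gen v := C.lift_gen _ _ v

theorem of_mem_P (c : Fin 3) (a : C.Hat) (ha : a ∈ P C {v | C.col v ≠ c}) :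
    ∃ b, kill C c b = b ∧ a = inl b := by
  have : P C {v | C.col v ≠ c} ≤ ((kill C c).eqLocus (MonoidHom.id _)).map inl := by
    refine (Subgroup.closure_le _).2 ?_
    rintro _ ⟨w, hw, rfl⟩
    exact ⟨_, (kill_gen C c w).trans (if_neg hw), rfl⟩
  obtain ⟨b, h1, h2⟩ := this ha
  exact ⟨b, h1, h2.symm⟩

theorem free : Free (tree C ρ hρ) := by
  intro g w hw
  have h1 : ∀ c, ∃ b b' : C.Raag, kill C c b' = b' ∧ g = inl (b * b' * b⁻¹) := fun c => by
    have h2 := hw c
    revert h2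
    obtain ⟨⟨b, q⟩⟩ := w c
    intro h2
    have h2' : QuotientGroup.mk (s := P C {v | C.col v ≠ c}) (g * ⟨b, q⟩) =
        QuotientGroup.mk ⟨b, q⟩ := h2
    have h3 := conj_P C c q⁻¹ _ (QuotientGroup.eq.1 h2'.symm)
    obtain ⟨b', h4, h5⟩ := of_mem_P C c _ h3
    refine ⟨b, b', h4, ?_⟩
    rw [map_mul, map_mul, ← h5, mk_eq_inl_mul_inr, map_inv, map_inv]
    group
  obtain ⟨a, rfl⟩ : ∃ a, g = inl a := let ⟨_, _, _, h⟩ := h1 0; ⟨_, h⟩
  have h2 : ∀ c, ∀ a', IsConj a' a → IsConj (kill C c a') a := fun c a' h => by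
    obtain ⟨b, b', h3, h4⟩ := h1 c
    have h5 : IsConj b' a := isConj_iff.2 ⟨b, (inl_injective h4).symm⟩
    exact (((kill C c).map_isConj (h.trans h5.symm)).trans (by rw [h3])).trans h5
  have h3 : ((kill C 0).comp ((kill C 1).comp (kill C 2))) = 1 := C.hom_ext fun v => by
    simp only [MonoidHom.comp_apply, MonoidHom.one_apply, kill_gen]
    have : C.col v = 0 ∨ C.col v = 1 ∨ C.col v = 2 := by
      generalize C.col v = i
      revert i
      decide
    rcases this with h | h | h <;> simp [h, kill_gen]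
  have h4 := h2 0 _ (h2 1 _ (h2 2 _ (IsConj.refl a)))
  rw [show kill C 0 (kill C 1 (kill C 2 a)) = 1 from DFunLike.congr_fun h3 a, isConj_one_right] at h4
  rw [h4, map_one]

include hρ in
theorem gdLE_three {H : Type} [Group H] (f : H →* C.Hat) (hf : Function.Injective f) :
    GdLE.{u, v} H 3 := (free C ρ hρ).gdLE_of f hf

theorem LL_three {H : Type} [Group H] (f : H →* LL.Hat) (hf : Function.Injective f) :
    GdLE.{u, v} H 3 :=
  gdLE_three LL (fun w => match w with | .v0 q _ => q | .v1 q _ _ => q | .v2 q _ => q)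
    (fun q w => by cases w <;> rfl) f hf

theorem isLeast_three {H : Type} [Group H] (h2 : ¬ GdLE.{u, v} H 2) (h3 : GdLE.{u, v} H 3) :
    IsLeast {n | GdLE.{u, v} H n} 3 :=
  ⟨h3, fun n ⟨X, i1, i2, i3, h, hX⟩ => not_lt.1 fun hn =>
    h2 ⟨X, i1, i2, i3, fun m hm => h m (by omega), hX⟩⟩

end Vale.Agent.P173G
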