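import Vale.Agent.P173G80.Defs
import Vale.Agent.P173G80.Hat
import Mathlib.Algebra.Category.ModuleCat.Projective
import Mathlib.RepresentationTheory.Rep.Iso

/-! The definitions by resolutions and by least dimension agree with the earlier ones. -/

set_option linter.all false

namespace Vale.Agent.P173G

open CategoryTheory CategoryTheory.Limits Function Topology Vale.Agent.P173

universe u v

theorem map_pd {C D : Type*} [Category C] [Category D] [Abelian C] [Abelian D]
    [EnoughProjectives C] (F : C ⥤ D) [F.IsEquivalence] (n : ℕ) (M : C) :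
    HasProjectiveDimensionLE (F.obj M) n ↔ HasProjectiveDimensionLE M n := by
  induction n generalizing M with
  | zero =>
    rw [← projective_iff_hasProjectiveDimensionLE_zero,
      ← projective_iff_hasProjectiveDimensionLE_zero]
    exact F.asEquivalence.map_projective_iff M
  | succ n ih =>
    obtain ⟨⟨P, f⟩⟩ := (inferInstance : EnoughProjectives C).1 M
    let T := ShortComplex.mk (kernel.ι f) f (kernel.condition f)
    have hT : T.ShortExact := { exact := ShortComplex.exact_kernel f }
    have h1 : Projective (T.map F).X₂ := (F.asEquivalence.map_projective_iff P).2 inferInstance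
    exact ((hT.map_of_exact F).hasProjectiveDimensionLT_X₃_iff n h1).trans ((ih (kernel f)).trans
      (hT.hasProjectiveDimensionLT_X₃_iff n (by dsimp [T]; infer_instance)).symm)

theorem shift {R : Type} [Ring R] {F M : Type} [AddCommGroup F] [Module R F] [AddCommGroup M]
    [Module R M] [Module.Projective R F] (ε : F →ₗ[R] M) (hε : Surjective ε) (n : ℕ) :
    HasProjectiveDimensionLE (ModuleCat.of R M) (n + 1) ↔
      HasProjectiveDimensionLE (ModuleCat.of R (LinearMap.ker ε)) n := by
  let S := ShortComplex.mk (ModuleCat.ofHom (LinearMap.ker ε).subtype) (ModuleCat.ofHom ε) (by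
    ext x
    exact x.2)
  have hS : S.ShortExact :=
    { exact := (ShortComplex.ShortExact.moduleCat_exact_iff_function_exact S).2
        (LinearMap.exact_subtype_ker_map ε)
      mono_f := (ModuleCat.mono_iff_injective _).2 (Submodule.injective_subtype _)
      epi_g := (ModuleCat.epi_iff_surjective _).2 hε }
  exact hS.hasProjectiveDimensionLT_X₃_iff n ((IsProjective.iff_projective F).1 inferInstance)

theorem res_iff {R : Type} [Ring R] (n : ℕ) : ∀ (M : Type) [AddCommGroup M] [Module R M],
    HasResolution R M n ↔ HasProjectiveDimensionLE (ModuleCat.of R M) n := by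
  induction n with
  | zero =>
    intro M _ _
    rw [← projective_iff_hasProjectiveDimensionLE_zero, ← IsProjective.iff_projective]
    constructor
    · rintro ⟨P, d, ε, h1, h2, h3, h4, -⟩
      have := h1 0
      have := h2 1 one_pos
      refine Module.Projective.of_equiv (LinearEquiv.ofBijective ε ⟨?_, h3⟩)
      refine (injective_iff_map_eq_zero _).2 fun x hx => ?_
      obtain ⟨y, rfl⟩ := (h4 x).1 hx
      rw [Subsingleton.elim y 0, map_zero]
    · intro h
      refine ⟨fun i => match i with | 0 => ModuleCat.of R M | _ + 1 => ModuleCat.of R PUnit,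
        fun _ => 0, LinearMap.id, ?_, ?_, surjective_id, fun x => ?_, fun i x => ?_⟩
      · rintro (_ | i)
        exacts [h, inferInstanceAs (Module.Projective R PUnit)]
      · rintro (_ | i) hi
        exacts [absurd hi (lt_irrefl _), inferInstanceAs (Subsingleton PUnit)]
      · exact ⟨fun h => ⟨0, h.symm⟩, fun ⟨_, h⟩ => h.symm⟩
      · exact ⟨fun _ => ⟨0, rfl⟩, fun _ => rfl⟩
  | succ n ih =>
    intro M _ _
    constructor
    · rintro ⟨P, d, ε, h1, h2, h3, h4, h5⟩
      have := h1 0
      refine (shift ε h3 n).2 ((ih _).1 ⟨fun i => P (i + 1), fun i => d (i + 1),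
        (d 0).codRestrict _ fun x => h4.apply_apply_eq_zero x, fun i => h1 _,
        fun i hi => h2 _ (by omega), fun x => ?_, fun x => ?_, fun i => h5 _⟩)
      · obtain ⟨y, hy⟩ := (h4 x.1).1 x.2
        exact ⟨y, Subtype.ext hy⟩
      · exact Subtype.ext_iff.trans (h5 0 x)
    · intro h
      let ε := Finsupp.linearCombination R (id : M → M)
      have hε : Surjective ε := Finsupp.linearCombination_id_surjective R M
      obtain ⟨P, d, e, h1, h2, h3, h4, h5⟩ := (ih _).2 ((shift ε hε n).1 h)
      refine ⟨fun i => match i with | 0 => ModuleCat.of R (M →₀ R) | i + 1 => P i,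
        fun i => match i with | 0 => (LinearMap.ker ε).subtype ∘ₗ e | i + 1 => d i, ε,
        ?_, ?_, hε, fun x => ⟨fun hx => ?_, ?_⟩, ?_⟩
      · rintro (_ | i)
        exacts [inferInstanceAs (Module.Projective R (M →₀ R)), h1 i]
      · rintro (_ | i) hi
        exacts [absurd hi (by omega), h2 i (by omega)]
      · obtain ⟨y, hy⟩ := h3 ⟨x, hx⟩
        exact ⟨y, congrArg Subtype.val hy⟩
      · rintro ⟨y, rfl⟩
        exact (e y).2
      · rintro (_ | i)
        · exact fun x => Iff.trans ⟨fun h => Subtype.ext h, fun h => congrArg Subtype.val h⟩ (h4 x)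
        · exact h5 i

theorem cd_eq_two {Γ : Type} [Group Γ] (h : projectiveDimension (Rep.trivial ℤ Γ ℤ) = 2) :
    cd Γ = 2 := by
  have key : ∀ n : ℕ, HasResolution (MonoidAlgebra ℤ Γ) (Representation.trivial ℤ Γ ℤ).asModule n ↔
      2 ≤ n := fun n => by
    refine (res_iff n _).trans ((map_pd Rep.toModuleMonoidAlgebra n (Rep.trivial ℤ Γ ℤ)).trans ?_)
    rw [← projectiveDimension_le_iff, h]
    exact_mod_cast Iff.rfl
  refine le_antisymm (iInf₂_le 2 ((key 2).2 le_rfl)) (le_iInf₂ fun n hn => ?_)
  exact_mod_cast (key n).1 hn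

theorem dim_le {X : Type u} [TopologicalSpace X] (C : CWComplex (Set.univ : Set X)) (n : ℕ) :
    dim C ≤ n ↔ ∀ m > n, IsEmpty (C.cell m) := by
  simp only [dim, iSup_le_iff, Nat.cast_le]
  exact ⟨fun h m hm => not_nonempty_iff.1 fun h' => (h m h').not_gt hm,
    fun h m h' => not_lt.1 fun hm => not_nonempty_iff.2 (h m hm) h'⟩

theorem three_le_gd {Γ : Type} [Group Γ] (h : ¬ GdLE.{u, v} Γ 2) : 3 ≤ gd.{u, v} Γ := by
  simp only [gd, le_iInf_iff]
  rintro X i1 i2 C ⟨-, ⟨x, ⟨e⟩⟩, E, i3, p, ⟨h1, h2, -⟩, h3⟩
  by_contra h4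
  have h5 : dim C ≤ (2 : ℕ) := ENat.lt_add_one_iff (by simp) |>.1 (not_le.1 h4)
  have := h2.pathConnectedSpace h1.continuous
  exact h ⟨X, i1, i2, C, (dim_le C 2).1 h5, this,
    fun y => ⟨(FundamentalGroup.fundamentalGroupMulEquivOfPathConnected y x).trans e⟩,
    E, i3, p, h1, h3⟩

theorem surj_of_cov {E X : Type*} [TopologicalSpace E] [TopologicalSpace X] [PathConnectedSpace X]
    [Nonempty E] {p : E → X} (h : IsCoveringMap p) : Surjective p := fun x => by
  obtain ⟨e⟩ : Nonempty E := inferInstance
  let γ := PathConnectedSpace.somePath (p e) x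
  exact ⟨h.liftPath γ e γ.source 1,
    (congrFun (h.liftPath_lifts γ e γ.source) 1).trans γ.target⟩

theorem gd_le {Γ : Type} [Group Γ] {n : ℕ} (h : GdLE.{u, v} Γ n) : gd.{u, v} Γ ≤ n := by
  obtain ⟨X, i1, i2, C, h1, h2, h3, E, i3, p, h4, h5⟩ := h
  obtain ⟨x⟩ : Nonempty X := inferInstance
  exact iInf_le_of_le X (iInf_le_of_le i1 (iInf_le_of_le i2 (iInf_le_of_le C (iInf_le_of_le
    ⟨inferInstance, ⟨x, h3 x⟩, E, i3, p, ⟨h4, surj_of_cov h4, inferInstance⟩, h5⟩
    ((dim_le C n).2 h1)))))

end Vale.Agent.P173G
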