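import Vale.Agent.P173G80.Prod

/-! The quotient of a product of trees by a free action is a classifying space. -/

set_option linter.all false

namespace Vale.Agent.P173G

open Set Sum GT Topology Metric Vale.Agent.P173

universe u v

variable {G : Type} [Group G] {ι : Type} [Fintype ι] {T : ι → GT G}
  {Y : Type u} [TopologicalSpace Y] {q : X T → Y} (hq : IsQuotientCoveringMap q G)

/-- The coordinates descend to the quotient. -/
noncomputable def co (y : Y) (c : ι) : ℝ := ((hq.surjective y).choose c).a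

theorem co_q (x : X T) (c : ι) : co hq (q x) c = (x c).a := by
  obtain ⟨g, hg⟩ := hq.apply_eq_iff_mem_orbit.1 (hq.surjective (q x)).choose_spec
  rw [co, ← hg]
  rfl

theorem cont_m (c : ι) : Continuous fun y => |co hq y c| :=
  hq.toIsQuotientMap.continuous_iff.2 (cont_of fun σ => by
    simp only [Function.comp_apply, co_q]
    exact (cont_abs (σ c)).comp (continuous_apply c))

theorem cont_ww (c : ι) : Continuous fun y => co hq y c * (1 - |co hq y c|) :=
  hq.toIsQuotientMap.continuous_iff.2 (cont_of fun σ => by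
    simp only [Function.comp_apply, co_q]
    exact (cont_w (σ c)).comp (continuous_apply c))

include hq in
theorem t2 : T2Space Y := ⟨fun y y' hne => by
  obtain ⟨x, rfl⟩ := hq.surjective y
  obtain ⟨x', rfl⟩ := hq.surjective y'
  by_cases h1 : ∃ c, |(x c).a| ≠ |(x' c).a|
  · obtain ⟨c, hc⟩ := h1
    exact separated_by_continuous (cont_m hq c) (by simpa only [co_q] using hc)
  by_cases h2 : ∃ c, (x c).a * (1 - |(x c).a|) ≠ (x' c).a * (1 - |(x' c).a|)
  · obtain ⟨c, hc⟩ := h2
    exact separated_by_continuous (cont_ww hq c) (by simpa only [co_q] using hc)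
  push Not at h1 h2
  have ho := hq.isOpenQuotientMap.isOpenMap
  refine ⟨q '' NX (cell x), q '' NX (cell x'), ho _ (NX_open _), ho _ (NX_open _),
    ⟨x, mem_NX x, rfl⟩, ⟨x', mem_NX x', rfl⟩, disjoint_left.2 ?_⟩
  rintro _ ⟨z, hz, rfl⟩ ⟨z', hz', e⟩
  obtain ⟨g, rfl⟩ := hq.apply_eq_iff_mem_orbit.1 e
  have h3 := NX_uniq hz hz' fun c => Bool.eq_iff_iff.2
    ((GT.isRight_iff (x c)).trans (by rw [h1]; exact (GT.isRight_iff (x' c)).symm))
  have h4 : g • x = x' := funext fun c => Pt.ext (congrFun h3 c) (a_eq (h1 c) (h2 c))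
  exact hne (by rw [← h4, hq.map_smul])⟩

/-- The directions of a cell. -/
abbrev Dir (σ : Cl T) : Type := {c // (σ c).isRight = true}

variable {n : ℕ}

/-- Extension of coordinates by zero. -/
noncomputable def ex (σ : Cl T) (κ : Dir σ ≃ Fin n) (y : Fin n → ℝ) (c : ι) : ℝ :=
  if h : (σ c).isRight = true then y (κ ⟨c, h⟩) else 0

theorem ex_ap (σ : Cl T) (κ : Dir σ ≃ Fin n) (y : Fin n → ℝ) (i : Fin n) :
    ex σ κ y (κ.symm i).1 = y i := by
  rw [ex, dif_pos (κ.symm i).2, Subtype.coe_eta, Equiv.apply_symm_apply]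

theorem cont_ex (σ : Cl T) (κ : Dir σ ≃ Fin n) : Continuous (ex σ κ) :=
  continuous_pi fun c => by
    unfold ex
    split_ifs
    exacts [continuous_apply _, continuous_const]

theorem chi_ex (σ : Cl T) (κ : Dir σ ≃ Fin n) (a : ι → ℝ) :
    chi σ (ex σ κ fun i => a (κ.symm i).1) = chi σ a := funext fun c => by
  show pt _ _ = pt _ _
  by_cases h : (σ c).isRight = true
  · rw [ex, dif_pos h, Equiv.symm_apply_apply]
  · rcases h' : σ c with v | e
    · rfl
    · simp [h'] at h

theorem pt_lt {T : GT G} {σ : T.V ⊕ T.E} {a : ℝ} (h : |a| < 1) :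
    (pt σ a).c = σ ∧ (σ.isRight = true → (pt σ a).a = a) := by
  cases σ with
  | inl v => exact ⟨rfl, fun h => by simp at h⟩
  | inr e => rw [pt_in e h]; exact ⟨rfl, fun _ => rfl⟩

theorem ex_lt (σ : Cl T) (κ : Dir σ ≃ Fin n) {y : Fin n → ℝ} (hy : y ∈ ball 0 1) (c : ι) :
    |ex σ κ y c| < 1 := by
  rw [mem_ball_zero_iff, pi_norm_lt_iff one_pos] at hy
  unfold ex
  split_ifs
  exacts [hy _, by simp]

theorem co_ex (σ : Cl T) (κ : Dir σ ≃ Fin n) {y : Fin n → ℝ} (hy : y ∈ ball 0 1) (i : Fin n) :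
    co hq (q (chi σ (ex σ κ y))) (κ.symm i).1 = y i := by
  rw [co_q, chi, (pt_lt (ex_lt σ κ hy _)).2 (κ.symm i).2, ex_ap]

/-- The characteristic maps. -/
noncomputable def pe (σ : Cl T) (κ : Dir σ ≃ Fin n) : PartialEquiv (Fin n → ℝ) Y where
  toFun y := q (chi σ (ex σ κ y))
  invFun z i := co hq z (κ.symm i).1
  source := ball 0 1
  target := (fun y => q (chi σ (ex σ κ y))) '' ball 0 1
  map_source' y hy := ⟨y, hy, rfl⟩
  map_target' := by
    rintro _ ⟨y, hy, rfl⟩
    simpa only [co_ex hq σ κ hy] using hy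
  left_inv' y hy := funext (co_ex hq σ κ hy)
  right_inv' := by
    rintro _ ⟨y, hy, rfl⟩
    simp only [co_ex hq σ κ hy]

theorem pe_ap (σ : Cl T) (κ : Dir σ ≃ Fin n) (y : Fin n → ℝ) :
    pe hq σ κ y = q (chi σ (ex σ κ y)) := rfl

variable (T) in
/-- The orbits of cells. -/
abbrev Orb : Type := Quotient (MulAction.orbitRel G (Cl T))

/-- The orbit of a cell. -/
def orb (σ : Cl T) : Orb T := Quotient.mk _ σ

theorem exists_out (σ : Cl T) : ∃ g : G, g • σ = (orb σ).out :=
  Quotient.exact (s := MulAction.orbitRel G (Cl T)) (Quotient.out_eq (orb σ))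

theorem card_out (σ : Cl T) : Fintype.card (Dir (orb σ).out) = Fintype.card (Dir σ) := by
  obtain ⟨g, hg⟩ := exists_out σ
  refine Fintype.card_congr (Equiv.subtypeEquivRight fun c => ?_)
  rw [← hg, Pi.smul_apply, isRight_smul]

theorem mem_cell (x : X T) (κ : Dir (orb (cell x)).out ≃ Fin n) :
    q x ∈ pe hq _ κ '' ball 0 1 := by
  obtain ⟨g, hg⟩ := exists_out (cell x)
  refine ⟨fun i => (x (κ.symm i).1).a, ?_, ?_⟩
  · rw [mem_ball_zero_iff, pi_norm_lt_iff one_pos]
    intro i
    have h := (κ.symm i).2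
    revert h
    generalize (κ.symm i).1 = c
    rw [← hg, Pi.smul_apply, isRight_smul]
    exact (isRight_iff _).1
  · rw [pe_ap, chi_ex _ κ fun c => (x c).a, ← hg, ← smul_chi, hq.map_smul]
    exact congrArg q (funext fun c => pt_self (x c))

theorem face {T : GT G} (σ : T.V ⊕ T.E) (a : ℝ) :
    (pt σ a).c ∈ ({σ, inl (σ.elim id T.s), inl (σ.elim id T.t)} : Set _) ∧
      ((pt σ a).c.isRight = true → σ.isRight = true ∧ |a| < 1) := by
  cases σ with
  | inl v => exact ⟨.inl rfl, fun h => by simp [pt, vx] at h⟩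
  | inr e =>
    rcases pt_cases e a with ⟨-, h1, -⟩ | ⟨-, h1, -⟩ | ⟨h, h1, -⟩ <;> rw [h1]
    · exact ⟨.inr (.inl rfl), fun h => by simp [vx] at h⟩
    · exact ⟨.inr (.inr rfl), fun h => by simp [vx] at h⟩
    · exact ⟨.inl rfl, fun _ => ⟨rfl, h⟩⟩

variable (T) in
/-- The cells of the quotient. -/
abbrev J (n : ℕ) : Type u := ULift.{u} {ω : Orb T // Fintype.card (Dir ω.out) = n}

/-- The characteristic map of a cell of the quotient. -/
noncomputable def mp (n : ℕ) (j : J.{u} T n) : PartialEquiv (Fin n → ℝ) Y :=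
  pe hq j.down.1.out (Fintype.equivFinOfCardEq j.down.2)

theorem cont_pe (σ : Cl T) (κ : Dir σ ≃ Fin n) : Continuous (pe hq σ κ) :=
  hq.continuous.comp ((cont_chi σ).comp (cont_ex σ κ))

/-- The CW structure of the quotient. -/
@[instance_reducible] noncomputable def cw : CWComplex (univ : Set Y) where
  cell := J T
  map := mp hq
  source_eq _ _ := rfl
  continuousOn _ _ := (cont_pe hq _ _).continuousOn
  continuousOn_symm n j := by
    refine continuousOn_pi.2 fun i => ?_
    set κ := Fintype.equivFinOfCardEq j.down.2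
    have key : ∀ z ∈ (mp hq n j).target, 1 - |co hq z (κ.symm i).1| ≠ 0 := by
      rintro _ ⟨y, hy, rfl⟩
      rw [co_ex hq _ κ hy]
      rw [mem_ball_zero_iff, pi_norm_lt_iff one_pos] at hy
      exact (sub_pos.2 (hy i)).ne'
    exact ((cont_ww hq _).continuousOn.div (continuous_const.sub (cont_m hq _)).continuousOn
      key).congr fun z hz => (mul_div_cancel_right₀ _ (key z hz)).symm
  pairwiseDisjoint' := by
    rintro ⟨n, ⟨ω, hω⟩⟩ - ⟨n', ⟨ω', hω'⟩⟩ - hne
    refine disjoint_left.2 ?_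
    rintro _ ⟨y, hy, rfl⟩ ⟨y', hy', e⟩
    obtain ⟨g, hg⟩ := hq.apply_eq_iff_mem_orbit.1 e
    have h1 : g • ω.out = ω'.out := funext fun c => by
      have h2 := congrArg (fun x => cell x c) hg
      simp only [cell_smul, Pi.smul_apply] at h2
      rw [cell, cell, chi, chi, (pt_lt (ex_lt _ _ hy c)).1, (pt_lt (ex_lt _ _ hy' c)).1] at h2
      exact h2
    obtain rfl : ω' = ω := by
      rw [← Quotient.out_eq ω, ← Quotient.out_eq ω']
      exact Quotient.sound ⟨g, h1⟩
    subst hω hω'
    exact hne rfl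
  mapsTo' n j := by
    obtain ⟨ω, hω⟩ := j
    have hf : {τ : Cl T | ∀ c, τ c ∈ ({ω.out c, inl ((ω.out c).elim id (T c).s),
        inl ((ω.out c).elim id (T c).t)} : Set _)}.Finite := Finite.pi' fun c => toFinite _
    refine ⟨fun m => ((hf.image orb).preimage (f := fun j : J.{u} T m => j.down.1)
      (Subtype.val_injective.comp ULift.down_injective).injOn).toFinset, fun y hy => ?_⟩
    set κ := Fintype.equivFinOfCardEq hω
    let x := chi ω.out (ex _ κ y)
    have hlt : Fintype.card (Dir (cell x)) < n := by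
      obtain ⟨i, hi⟩ : ∃ i, ¬ |y i| < 1 := by
        by_contra h
        push Not at h
        exact (mem_sphere_zero_iff_norm.1 hy).not_lt ((pi_norm_lt_iff one_pos).2 h)
      rw [← hω]
      refine Fintype.card_lt_of_injective_of_notMem
        (fun c : Dir (cell x) => (⟨c.1, ((face _ _).2 c.2).1⟩ : Dir ω.out))
        (fun a b h => Subtype.ext (Subtype.mk.inj h)) (b := κ.symm i) ?_
      rintro ⟨c, hc⟩
      have h1 := ((face _ _).2 c.2).2
      rw [show c.1 = (κ.symm i).1 from congrArg Subtype.val hc, ex_ap] at h1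
      exact hi h1
    simp only [mem_iUnion]
    exact ⟨_, hlt, ⟨⟨orb (cell x), card_out _⟩⟩, (Finite.mem_toFinset _).2
      ⟨cell x, fun c => (face _ _).1, rfl⟩, image_mono ball_subset_closedBall (mem_cell hq x _)⟩
  closed' A _ h := by
    rw [← hq.toIsQuotientMap.isClosed_preimage, ← isOpen_compl_iff]
    refine open_of fun σ => ?_
    obtain ⟨g, hg⟩ := exists_out σ
    have h1 := (h _ ⟨⟨orb σ, rfl⟩⟩).preimage (hq.continuous.comp (cont_chi σ))
    rw [preimage_compl, isOpen_compl_iff]
    convert h1 using 1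
    refine Set.ext fun a => ⟨fun ha => ⟨ha, fun i => cl (a (Equiv.symm
      (Fintype.equivFinOfCardEq (α := Dir (orb σ).out) rfl) i).1), ?_, ?_⟩, fun ha => ha.1⟩
    · rw [mem_closedBall_zero_iff, pi_norm_le_iff_of_nonneg zero_le_one]
      exact fun i => abs_le.2 ⟨le_max_left _ _, max_le (by norm_num) (min_le_left _ _)⟩
    · rw [mp, pe_ap, chi_ex _ _ fun c => cl (a c), Function.comp_apply,
        ← hq.map_smul g (e := chi σ a), smul_chi, hg]
      exact congrArg q (funext fun c => pt_cl _ _)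
  union' := eq_univ_of_forall fun y => by
    obtain ⟨x, rfl⟩ := hq.surjective y
    simp only [mem_iUnion]
    exact ⟨_, ⟨⟨orb (cell x), rfl⟩⟩, image_mono ball_subset_closedBall (mem_cell hq x _)⟩

/-- A group that acts freely on the vertices of a product of `n` trees has geometric dimension at
most `n`. -/
theorem Free.gdLE (h : Free T) : GdLE.{u, v} G (Fintype.card ι) := by
  have hq := h.cov.homeomorph_comp (Homeomorph.ulift.{u}).symm
  have := contractible (T := T)
  refine ⟨_, _, t2 hq, cw hq, fun m hm => ⟨fun j : J.{u} T m => ?_⟩,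
    hq.surjective.pathConnectedSpace hq.continuous, fun y => ?_, ULift.{v} (X T), inferInstance,
    _, hq.isCoveringMap.comp_homeomorph Homeomorph.ulift, Homeomorph.ulift.contractibleSpace⟩
  · have h1 := j.down.2
    have h2 : Fintype.card (Dir j.down.1.out) ≤ Fintype.card ι := Fintype.card_subtype_le _
    omega
  · obtain ⟨e, he⟩ := hq.surjective y
    exact ⟨(hq.fundamentalGroupEquiv ⟨e, he⟩).trans (MulEquiv.inv' G).symm⟩

end Vale.Agent.P173G
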