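import Mathlib.Algebra.Category.ModuleCat.Basic
import Mathlib.Algebra.Module.Projective
import Mathlib.AlgebraicTopology.FundamentalGroupoid.FundamentalGroup
import Mathlib.AlgebraicTopology.FundamentalGroupoid.SimplyConnected
import Mathlib.RepresentationTheory.Basic
import Mathlib.Topology.Covering.Basic
import Mathlib.Topology.CWComplex.Classical.Basic

/-! Cohomological and geometric dimension of a group. -/

namespace Vale.Agent.P173G

open Function Topology

universe u v

/-- The left `R`-module `M` has a projective resolution `0 → P n → ⋯ → P 0 → M → 0`. -/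
def HasResolution (R : Type) [Ring R] (M : Type) [AddCommGroup M] [Module R M] (n : ℕ) : Prop :=
  ∃ (P : ℕ → ModuleCat.{0} R) (d : ∀ i, P (i + 1) →ₗ[R] P i) (ε : P 0 →ₗ[R] M),
    (∀ i, Module.Projective R (P i)) ∧ (∀ i > n, Subsingleton (P i)) ∧
      Surjective ε ∧ Exact (d 0) ε ∧ ∀ i, Exact (d (i + 1)) (d i)

/-- The cohomological dimension: the least length of a projective resolution of the trivial
`ℤ[Γ]`-module `ℤ`, or `∞` if there is no resolution of finite length. -/
noncomputable def cd (Γ : Type) [Group Γ] : ℕ∞ :=
  ⨅ (n : ℕ) (_ : HasResolution (MonoidAlgebra ℤ Γ) (Representation.trivial ℤ Γ ℤ).asModule n),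
    (n : ℕ∞)

/-- `p` is a universal cover: a surjective covering map from a simply connected space. -/
def IsUniversalCover {E : Type v} {X : Type u} [TopologicalSpace E] [TopologicalSpace X]
    (p : E → X) : Prop :=
  IsCoveringMap p ∧ Surjective p ∧ SimplyConnectedSpace E

/-- `X` is connected, has fundamental group `Γ` and a contractible universal cover. -/
def IsKOne (Γ : Type) [Group Γ] (X : Type u) [TopologicalSpace X] : Prop :=
  ConnectedSpace X ∧ (∃ x : X, Nonempty (FundamentalGroup X x ≃* Γ)) ∧
    ∃ (E : Type v) (_ : TopologicalSpace E) (p : E → X),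
      IsUniversalCover p ∧ ContractibleSpace E

/-- The dimension of a CW complex: the supremum of the dimensions of its cells. -/
noncomputable def dim {X : Type u} [TopologicalSpace X] (C : CWComplex (Set.univ : Set X)) : ℕ∞ :=
  ⨆ (n : ℕ) (_ : Nonempty (C.cell n)), (n : ℕ∞)

/-- The geometric dimension: the least dimension of a classifying space, a Hausdorff space with
the structure of a CW complex which is a `K(Γ, 1)`. -/
noncomputable def gd (Γ : Type) [Group Γ] : ℕ∞ :=
  ⨅ (X : Type u) (_ : TopologicalSpace X) (_ : T2Space X) (C : CWComplex (Set.univ : Set X))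
    (_ : IsKOne.{u, v} Γ X), dim C

end Vale.Agent.P173G
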