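import Vale.Agent.P173G80.Tree

/-! Rooted structure of a tree, geodesics and the contraction. -/

set_option linter.all false

namespace Vale.Agent.P173G

open Set Sum

namespace GT

variable {G : Type} [Group G] (T : GT G)

/-- Reachable from the root in `n` steps. -/
inductive Reach : ℕ → T.V → Prop
  | root : Reach 0 T.r
  | fw {n e} : Reach n (T.s e) → Reach (n + 1) (T.t e)
  | bw {n e} : Reach n (T.t e) → Reach (n + 1) (T.s e)

/-- The rooted structure. -/
structure Root where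
  d : T.V → ℕ
  par : T.V → T.V
  ed : T.V → T.V ⊕ T.E
  sg : T.V → ℝ
  up : T.E → T.V
  zero : ∀ v, d v = 0 → v = T.r
  step : ∀ v n, d v = n + 1 → d (par v) = n ∧ ∃ e, ed v = inr e ∧
    ((sg v = 1 ∧ T.t e = v ∧ T.s e = par v) ∨ (sg v = -1 ∧ T.s e = v ∧ T.t e = par v))
  up_d : ∀ e, d (up e) ≠ 0
  up_ed : ∀ e, ed (up e) = inr e

theorem exists_root : Nonempty T.Root := by
  classical
  have h0 : ∀ v, ∃ n, T.Reach n v := T.conn _ ⟨0, .root⟩ fun e =>
    ⟨fun ⟨n, h⟩ => ⟨_, h.fw⟩, fun ⟨n, h⟩ => ⟨_, h.bw⟩⟩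
  let d : T.V → ℕ := fun v => Nat.find (h0 v)
  have hd : ∀ v, T.Reach (d v) v := fun v => Nat.find_spec (h0 v)
  have hm : ∀ {v n}, T.Reach n v → d v ≤ n := fun h => Nat.find_min' _ h
  have hz : ∀ v, d v = 0 → v = T.r := fun v h => by
    have := hd v
    rw [h] at this
    cases this
    rfl
  have hs : ∀ v, ∃ (w : T.V) (c : T.V ⊕ T.E) (x : ℝ), ∀ n, d v = n + 1 → d w = n ∧
      ∃ e, c = inr e ∧ ((x = 1 ∧ T.t e = v ∧ T.s e = w) ∨ (x = -1 ∧ T.s e = v ∧ T.t e = w)) := by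
    intro v
    have h1 := hd v
    have key : ∀ m u, T.Reach m u → u = v → d v = m → ∃ (w : T.V) (c : T.V ⊕ T.E) (x : ℝ),
        ∀ n, d v = n + 1 → d w = n ∧ ∃ e, c = inr e ∧
          ((x = 1 ∧ T.t e = v ∧ T.s e = w) ∨ (x = -1 ∧ T.s e = v ∧ T.t e = w)) := by
      intro m u h hu hv
      cases h with
      | root => exact ⟨v, inl v, 0, fun n hn => by omega⟩
      | @fw k e h =>
        refine ⟨T.s e, inr e, 1, fun n hn => ⟨?_, e, rfl, .inl ⟨rfl, hu, rfl⟩⟩⟩
        have h2 := hm h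
        have h3 := hm (hd (T.s e)).fw
        rw [hu] at h3
        omega
      | @bw k e h =>
        refine ⟨T.t e, inr e, -1, fun n hn => ⟨?_, e, rfl, .inr ⟨rfl, hu, rfl⟩⟩⟩
        have h2 := hm h
        have h3 := hm (hd (T.t e)).bw
        rw [hu] at h3
        omega
    exact key _ _ h1 rfl rfl
  choose par ed sg hs using hs
  have hu : ∀ e, ∃ v, d v ≠ 0 ∧ ed v = inr e := fun e => by
    by_contra hn
    push Not at hn
    obtain ⟨φ, h1, h2⟩ := T.acyc e
    have : ∀ n v, d v = n → φ v = φ T.r := fun n => by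
      induction n with
      | zero => exact fun v h => congrArg φ (hz v h)
      | succ n ih =>
        intro v h
        obtain ⟨h3, e', h4, h5⟩ := hs v n h
        have h6 := h2 e' fun h7 => hn v (by omega) (h7 ▸ h4)
        rw [← ih _ h3]
        rcases h5 with ⟨-, h7, h8⟩ | ⟨-, h7, h8⟩
        · rw [← h8, h6, h7]
        · rw [← h8, ← h6, h7]
    exact h1 ((this _ _ rfl).trans (this _ _ rfl).symm)
  choose up h1 h2 using hu
  exact ⟨⟨d, par, ed, sg, up, hz, hs, h1, h2⟩⟩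

variable {T}

/-- Piecewise cellular paths. -/
def PC (p : ℝ → T.Pt) : Prop :=
  ∃ (K : Type) (_ : Finite K) (F : K → Set ℝ) (σ : K → T.V ⊕ T.E) (f : K → ℝ → ℝ),
    (∀ k, IsClosed (F k)) ∧ (∀ a, ∃ k, a ∈ F k) ∧ (∀ k, Continuous (f k)) ∧
      ∀ k, ∀ a ∈ F k, p a = pt (σ k) (f k a)

namespace Root

variable (R : T.Root)

/-- The geodesic from the root, by recursion on the depth. -/
noncomputable def g : ℕ → T.V → ℝ → T.Pt
  | 0, v, _ => vx v
  | n + 1, v, a =>
    if a ≤ n then g n (R.par v) a else pt (R.ed v) (R.sg v * (2 * (a - n) - 1))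

/-- The geodesic from the root. -/
noncomputable def γ (v : T.V) (a : ℝ) : T.Pt := R.g (R.d v) v a

theorem γ_zero {v : T.V} (h : R.d v = 0) (a : ℝ) : R.γ v a = vx v := by rw [γ, h, g]

theorem γ_le {v : T.V} {n : ℕ} (h : R.d v = n + 1) {a : ℝ} (ha : a ≤ n) :
    R.γ v a = R.γ (R.par v) a := by
  rw [γ, h, g, if_pos ha, γ, (R.step v n h).1]

theorem γ_gt {v : T.V} {n : ℕ} (h : R.d v = n + 1) {a : ℝ} (ha : n < a) :
    R.γ v a = pt (R.ed v) (R.sg v * (2 * (a - n) - 1)) := by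
  rw [γ, h, g, if_neg ha.not_ge]

theorem γ_top (v : T.V) {a : ℝ} (ha : (R.d v : ℝ) ≤ a) : R.γ v a = vx v := by
  rcases h : R.d v with _ | n
  · exact R.γ_zero h a
  · rw [h] at ha
    push_cast at ha
    obtain ⟨-, e, h1, ⟨h2, h3, -⟩ | ⟨h2, h3, -⟩⟩ := R.step v n h
    · rw [R.γ_gt h (by linarith), h1, h2, pt_t e (by linarith), h3]
    · rw [R.γ_gt h (by linarith), h1, h2, pt_s e (by linarith), h3]

theorem γ_ge {v : T.V} {n : ℕ} (h : R.d v = n + 1) {a : ℝ} (ha : n ≤ a) :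
    R.γ v a = pt (R.ed v) (R.sg v * (2 * (a - n) - 1)) := by
  rcases ha.eq_or_lt with rfl | ha
  · obtain ⟨h0, e, h1, ⟨h2, -, h3⟩ | ⟨h2, -, h3⟩⟩ := R.step v n h
    · rw [R.γ_le h le_rfl, R.γ_top _ (by rw [h0]), h1, h2, pt_s e (by linarith), h3]
    · rw [R.γ_le h le_rfl, R.γ_top _ (by rw [h0]), h1, h2, pt_t e (by linarith), h3]
  · exact R.γ_gt h ha

theorem γ_bot (n : ℕ) : ∀ v, R.d v = n → R.γ v 0 = vx T.r := by
  induction n with
  | zero => exact fun v h => by rw [R.γ_zero h, R.zero v h]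
  | succ n ih => exact fun v h => by rw [R.γ_le h n.cast_nonneg, ih _ (R.step v n h).1]

theorem pc (n : ℕ) : ∀ v, R.d v = n → PC (R.γ v) := by
  induction n with
  | zero =>
    exact fun v h => ⟨Unit, inferInstance, fun _ => univ, fun _ => inl v, fun _ => id,
      fun _ => isClosed_univ, fun _ => ⟨(), trivial⟩, fun _ => continuous_id,
      fun _ a _ => R.γ_zero h a⟩
  | succ n ih =>
    intro v h
    obtain ⟨K, _, F, σ, f, h1, h2, h3, h4⟩ := ih _ (R.step v n h).1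
    refine ⟨Option K, inferInstance, fun k => k.elim (Ici n) fun k => F k ∩ Iic n,
      fun k => k.elim (R.ed v) σ, fun k => k.elim (fun a => R.sg v * (2 * (a - n) - 1)) f,
      ?_, fun a => ?_, ?_, ?_⟩
    · rintro (_ | k)
      exacts [isClosed_Ici, (h1 k).inter isClosed_Iic]
    · rcases le_total a n with ha | ha
      · obtain ⟨k, hk⟩ := h2 a
        exact ⟨some k, hk, ha⟩
      · exact ⟨none, ha⟩
    · rintro (_ | k)
      · show Continuous fun a : ℝ => R.sg v * (2 * (a - n) - 1)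
        fun_prop
      · exact h3 k
    · rintro (_ | k) a ha
      · exact R.γ_ge h ha
      · exact (R.γ_le h ha.2).trans (h4 k a ha.1)

/-- The contraction. -/
noncomputable def K (p : T.Pt) (u : ℝ) : T.Pt :=
  Sum.elim (fun v => R.γ v (u * R.d v))
    (fun e => R.γ (R.up e) (u * (R.d (R.up e) - 1 + (R.sg (R.up e) * p.a + 1) / 2))) p.c

theorem K_zero (p : T.Pt) : R.K p 0 = vx T.r := by
  obtain ⟨c, a, h⟩ := p
  cases c <;> simp only [K, elim_inl, elim_inr, zero_mul, R.γ_bot _ _ rfl]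

theorem K_one (p : T.Pt) : R.K p 1 = p := by
  obtain ⟨c, a, h⟩ := p
  cases c with
  | inl v =>
    obtain rfl : a = 1 := h
    simp only [K, elim_inl, one_mul, R.γ_top v le_rfl, vx]
  | inr e =>
    obtain ⟨n, hn⟩ := Nat.exists_eq_succ_of_ne_zero (R.up_d e)
    have h' := abs_lt.1 (show |a| < 1 from h)
    simp only [K, elim_inr, one_mul]
    obtain ⟨-, -, -, ⟨h2, -⟩ | ⟨h2, -⟩⟩ := R.step _ n hn
    all_goals
      rw [R.γ_ge hn (by rw [hn, h2]; push_cast; linarith), R.up_ed, hn, h2, ← pt_in e h]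
      congr 1
      push_cast
      ring

theorem K_pt (σ : T.V ⊕ T.E) : ∃ (v : T.V) (l : ℝ → ℝ), Continuous l ∧
    ∀ a, ∀ u ∈ Icc (0 : ℝ) 1, R.K (pt σ a) u = R.γ v (u * l a) := by
  cases σ with
  | inl v => exact ⟨v, fun _ => R.d v, continuous_const, fun _ _ _ => rfl⟩
  | inr e =>
    obtain ⟨n, hn⟩ := Nat.exists_eq_succ_of_ne_zero (R.up_d e)
    refine ⟨R.up e, fun a => R.d (R.up e) - 1 + (R.sg (R.up e) * cl a + 1) / 2,
      by have := cont_cl; fun_prop, fun a u hu => ?_⟩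
    obtain ⟨h0, e', h1, h2⟩ := R.step _ n hn
    obtain rfl : e = e' := inr.inj ((R.up_ed e).symm.trans h1)
    have hle : u * n ≤ n := mul_le_of_le_one_left n.cast_nonneg hu.2
    have top : R.K (vx (R.up e)) u = R.γ (R.up e) (u * (R.d (R.up e) - 1 + (1 + 1) / 2)) := by
      show R.γ _ _ = _
      congr 1
      ring
    have bot : R.K (vx (R.par (R.up e))) u =
        R.γ (R.up e) (u * (R.d (R.up e) - 1 + (-1 + 1) / 2)) := by
      show R.γ _ _ = _
      rw [h0, ← R.γ_le hn hle, hn]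
      congr 1
      push_cast
      ring
    rcases pt_cases e a with ⟨-, h3, h4⟩ | ⟨-, h3, h4⟩ | ⟨_, h3, h4⟩ <;> simp only [h3, h4]
    · rcases h2 with ⟨h5, -, h6⟩ | ⟨h5, h6, -⟩
      · rw [h6, h5, bot, one_mul]
      · rw [h6, h5, top, neg_mul_neg, one_mul]
    · rcases h2 with ⟨h5, h6, -⟩ | ⟨h5, -, h6⟩
      · rw [h6, h5, top, one_mul]
      · rw [h6, h5, bot, mul_one]
    · rfl

end Root

end GT

end Vale.Agent.P173G
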