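import Vale.Agent.P173G80.Br
import Vale.Agent.P173F.ResDefs
import Vale.Agent.P173F.Main
import Vale.Agent.P173F.LBasic
import Vale.Agent.P173F.LH1
import Vale.Agent.P173F.LRet
import Vale.Agent.P173F.LLoc
import Vale.Agent.P173F.Cube
import Vale.Agent.P173F.Lev
import Vale.Agent.P173F.LevEx
import Vale.Agent.P173F.GeomFI

/-! A group of cohomological dimension two and geometric dimension three. -/

set_option linter.all false

namespace Vale.Agent.P173G

open Vale.Agent.P173 Vale.Agent.P173F CategoryTheory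

universe u v

theorem cd_eq (Γ : Type) [Group Γ] :
    (cd Γ : WithBot ℕ∞) = projectiveDimension (Rep.trivial ℤ Γ ℤ) := by
  have key : ∀ n : ℕ, HasResolution (MonoidAlgebra ℤ Γ) (Representation.trivial ℤ Γ ℤ).asModule n ↔
      projectiveDimension (Rep.trivial ℤ Γ ℤ) ≤ n := fun n =>
    (res_iff n _).trans ((map_pd Rep.toModuleMonoidAlgebra n (Rep.trivial ℤ Γ ℤ)).trans
      (projectiveDimension_le_iff _ n).symm)
  have hb : projectiveDimension (Rep.trivial ℤ Γ ℤ) ≠ ⊥ := fun h => by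
    have h1 := ((projectiveDimension_eq_bot_iff _).1 h).eq_of_src (𝟙 _) 0
    exact one_ne_zero (congrArg (fun f => f.hom (1 : ℤ)) h1 : (1 : ℤ) = 0)
  obtain ⟨d, hd⟩ := WithBot.ne_bot_iff_exists.1 hb
  rw [← hd] at key ⊢
  refine congrArg _ (le_antisymm ?_ (le_iInf₂ fun n hn => ?_))
  · induction d using ENat.recTopCoe with
    | top => exact le_top
    | coe n => exact iInf₂_le n ((key n).2 le_rfl)
  · exact WithBot.coe_le_coe.1 ((key n).1 hn)

theorem main : (¬ ∀ (Γ : Type) [Group Γ], cd Γ = 2 → gd.{u, v} Γ = 2) ∧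
    (∃ (Γ : Type) (_ : Group Γ), Group.FG Γ ∧ Group.ResiduallyFinite Γ ∧
      cd Γ = 2 ∧ gd.{u, v} Γ = 3 ∧ HasFiniteFreeResolutionTwo Γ ∧
      ∀ Δ : Subgroup Γ, Δ.FiniteIndex → cd Δ = 2 ∧ gd.{u, v} Δ = 3 ∧
        ∀ (H : Type) [Group H] (f : Δ →* H), Function.Injective f → 3 ≤ gd.{u, v} H) ∧
    ∀ (Γ : Type) [Group Γ], (cd Γ : WithBot ℕ∞) = projectiveDimension (Rep.trivial ℤ Γ ℤ) := by
  have h := LL.main.{u, v} LL_tr.some LL_conn LL_cofin LL_locFin LL_h1 (LL.cubeRet LL_ret) LL_loc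
  have h1 : cd LL.GG = 2 := cd_eq_two h.2.2.1
  have h2 : gd.{u, v} LL.GG = 3 :=
    le_antisymm (gd_le (LL_three _ LL.GG.subtype_injective)) (three_le_gd h.2.2.2.1)
  refine ⟨fun h3 => ?_, ⟨LL.GG, inferInstance, h.1, h.2.1, h1, h2,
    LL.fl LL_tr.some.u LL_cofin LL_locFin (LL.rel0 LL_conn LL_tr.some.u) (LL.rel1 LL_h1)
      (LL.rel2 LL_ret (LL.cubeRet LL_ret)), fun Δ _ => ?_⟩, cd_eq⟩
  · have h4 := h3 _ h1
    rw [h2] at h4
    exact absurd h4 (by decide)
  · have h3 := LL.main_fi.{u, v} LL_tr.some LL_cofin LL_locFin LL_h1 (LL.cubeRet LL_ret) LL_loc Δ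
    exact ⟨cd_eq_two h3.1, le_antisymm (gd_le (LL_three (LL.GG.subtype.comp Δ.subtype)
      (LL.GG.subtype_injective.comp Δ.subtype_injective)))
      (three_le_gd (h3.2.2 _ (MonoidHom.id _) Function.injective_id)),
      fun H _ f hf => three_le_gd (h3.2.2 H f hf)⟩

end Vale.Agent.P173G
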