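import Vale.Agent.P173G80.Geo

/-! A finite product of trees with the weak topology: it is contractible, and a group that acts
freely on the vertices acts as a covering space action. -/

set_option linter.all false

namespace Vale.Agent.P173G

open Set Sum GT Topology

variable {G : Type} [Group G] {ι : Type} [Fintype ι] (T : ι → GT G)

/-- The product. -/
def X : Type := ∀ c, (T c).Pt

/-- The cells of the product. -/
abbrev Cl : Type := ∀ c, (T c).V ⊕ (T c).E

instance : MulAction G (X T) := inferInstanceAs (MulAction G (∀ c, (T c).Pt))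

variable {T}

/-- A point with given components. -/
def mkX (f : ∀ c, (T c).Pt) : X T := f

/-- The closed cells. -/
noncomputable def chi (σ : Cl T) (a : ι → ℝ) : X T := fun c => pt (σ c) (a c)

noncomputable instance : TopologicalSpace (X T) :=
  ⨆ σ : Cl T, TopologicalSpace.coinduced (chi σ) inferInstance

theorem cont_chi (σ : Cl T) : Continuous (chi σ) :=
  continuous_iSup_rng (i := σ) continuous_coinduced_rng

theorem cont_of {Z : Type*} [TopologicalSpace Z] {f : X T → Z}
    (h : ∀ σ, Continuous fun a => f (chi σ a)) : Continuous f :=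
  continuous_iSup_dom.2 fun σ => continuous_coinduced_dom.2 (h σ)

theorem open_of {U : Set (X T)} (h : ∀ σ, IsOpen (chi σ ⁻¹' U)) : IsOpen U :=
  isOpen_iSup_iff.2 fun σ => isOpen_coinduced.2 (h σ)

theorem smul_ap (g : G) (x : X T) (c : ι) : (g • x) c = g • x c := rfl

theorem smul_chi (g : G) (σ : Cl T) (a : ι → ℝ) : g • chi σ a = chi (g • σ) a :=
  funext fun c => smul_pt g (σ c) (a c)

instance : ContinuousConstSMul G (X T) :=
  ⟨fun g => cont_of fun σ => by simp only [smul_chi]; exact cont_chi _⟩

theorem cont_pc {p : ∀ c, ℝ → (T c).Pt} (h : ∀ c, PC (p c)) :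
    Continuous fun b : ι → ℝ => mkX fun c => p c (b c) := by
  choose K hK F σ f h1 h2 h3 h4 using h
  refine LocallyFinite.continuous (f := fun k : ∀ c, K c => {b : ι → ℝ | ∀ c, b c ∈ F c (k c)})
    (locallyFinite_of_finite _) ?_ (fun k => ?_) fun k => ?_
  · refine eq_univ_of_forall fun b => ?_
    choose k hk using fun c => h2 c (b c)
    exact mem_iUnion.2 ⟨k, hk⟩
  · rw [setOf_forall]
    exact isClosed_iInter fun c => (h1 c _).preimage (continuous_apply c)
  · refine ((cont_chi fun c => σ c (k c)).comp (continuous_pi fun c =>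
      (h3 c (k c)).comp (continuous_apply c))).continuousOn.congr fun b hb => ?_
    exact funext fun c => h4 c _ _ (hb c)

theorem contractible : ContractibleSpace (X T) := by
  have R : ∀ c, (T c).Root := fun c => (T c).exists_root.some
  have h1 : ∀ σ : Cl T, Continuous fun z : (ι → ℝ) × unitInterval =>
      mkX fun c => (R c).K (chi σ z.1 c) z.2 := fun σ => by
    choose v l hl h using fun c => (R c).K_pt (σ c)
    refine ((cont_pc fun c => (R c).pc _ (v c) rfl).comp (f := fun z : (ι → ℝ) × unitInterval =>
      fun c => z.2 * l c (z.1 c)) (continuous_pi fun c => ?_)).congr fun z => ?_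
    · have := hl c
      fun_prop
    · exact funext fun c => (h c _ _ z.2.2).symm
  let k : X T → C(unitInterval, X T) := fun x => ⟨fun u => mkX fun c => (R c).K (x c) u, by
    refine ((h1 fun c => (x c).c).comp
      (Continuous.prodMk_right fun c => (x c).a)).congr fun u => funext fun c => ?_
    show (R c).K (pt _ _) _ = _
    rw [pt_self]
    rfl⟩
  have h2 : Continuous k := cont_of fun σ =>
    ContinuousMap.continuous_of_continuous_uncurry _ (h1 σ)
  have h3 : Continuous fun z : unitInterval × X T => k z.2 z.1 :=
    (h2.comp continuous_snd).eval continuous_fst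
  refine (contractible_iff_id_nullhomotopic _).2 ⟨fun c => vx (T c).r, ⟨ContinuousMap.Homotopy.symm
    ⟨⟨_, h3⟩, fun x => funext fun c => (R c).K_zero _, fun x => funext fun c => (R c).K_one _⟩⟩⟩

/-- The open cell of a point. -/
def cell (x : X T) : Cl T := fun c => (x c).c

theorem cell_smul (g : G) (x : X T) : cell (g • x) = g • cell x := rfl

/-- Neighbourhoods of the open cells. -/
def NX (τ : Cl T) : Set (X T) := {x | ∀ c, x c ∈ N (τ c)}

theorem NX_open (τ : Cl T) : IsOpen (NX τ) := open_of fun σ => by
  have : chi σ ⁻¹' NX τ = ⋂ c, (fun a : ι → ℝ => a c) ⁻¹' (pt (σ c) ⁻¹' N (τ c)) := by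
    ext a
    rw [mem_iInter]
    rfl
  rw [this]
  exact isOpen_iInter_of_finite fun c => (N_open _ _).preimage (continuous_apply c)

theorem mem_NX (x : X T) : x ∈ NX (cell x) := fun c => mem_N (x c)

theorem isRight_smul {V E : Type} [MulAction G V] [MulAction G E] (g : G) (τ : V ⊕ E) :
    (g • τ).isRight = τ.isRight := by cases τ <;> rfl

theorem NX_uniq {g : G} {τ τ' : Cl T} {x : X T} (h : x ∈ NX τ) (h' : g • x ∈ NX τ')
    (e : ∀ c, (τ c).isRight = (τ' c).isRight) : g • τ = τ' :=
  funext fun c => N_uniq (N_smul g (h c)) (h' c) ((isRight_smul g _).trans (e c))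

variable (T) in
/-- The action on the vertices of the product is free. -/
def Free : Prop := ∀ (g : G) (v : ∀ c, (T c).V), (∀ c, g • v c = v c) → g = 1

theorem Free.cell (h : Free T) {g : G} {σ : Cl T} (e : g • σ = σ) : g = 1 := by
  refine h g (fun c => Sum.elim id (T c).s (σ c)) fun c => ?_
  have h1 : g • σ c = σ c := congrFun e c
  rcases h2 : σ c with v | e'
  · rw [h2] at h1
    exact inl.inj h1
  · rw [h2] at h1
    exact ((T c).s_smul g e').symm.trans (congrArg _ (inr.inj h1))

theorem Free.cov (h : Free T) :
    IsQuotientCoveringMap (Quotient.mk (MulAction.orbitRel G (X T))) G where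
  toIsQuotientMap := isQuotientMap_quotient_mk'
  continuous_const_smul := continuous_const_smul
  apply_eq_iff_mem_orbit := Quotient.eq''
  disjoint x := ⟨NX (P173G.cell x), (NX_open _).mem_nhds (mem_NX x), by
    rintro g ⟨_, ⟨y, hy, rfl⟩, hy'⟩
    exact h.cell (NX_uniq hy hy' fun _ => rfl)⟩

end Vale.Agent.P173G
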