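import Vale.Agent.P173.GdDefs
import Mathlib.Algebra.Group.Action.Sum

/-! Trees with a group action, their points, and the contraction along geodesics. -/

set_option linter.all false

namespace Vale.Agent.P173G

open Set Sum

/-- A tree with an action of `G` without inversions. -/
structure GT (G : Type) [Group G] where
  V : Type
  E : Type
  [aV : MulAction G V]
  [aE : MulAction G E]
  s : E → V
  t : E → V
  s_smul : ∀ (g : G) e, s (g • e) = g • s e
  t_smul : ∀ (g : G) e, t (g • e) = g • t e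
  r : V
  conn : ∀ P : V → Prop, P r → (∀ e, P (s e) ↔ P (t e)) → ∀ v, P v
  acyc : ∀ e, ∃ φ : V → ℤ, φ (s e) ≠ φ (t e) ∧ ∀ e', e' ≠ e → φ (s e') = φ (t e')

attribute [instance] GT.aV GT.aE

/-- The admissible coordinates. -/
def Ok {V E : Type} : V ⊕ E → ℝ → Prop
  | inl _, a => a = 1
  | inr _, a => |a| < 1

/-- Truncation. -/
noncomputable def cl (a : ℝ) : ℝ := max (-1) (min 1 a)

theorem cont_cl : Continuous cl := by unfold cl; fun_prop

namespace GT

variable {G : Type} [Group G] (T : GT G)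

/-- The points: an open cell and a coordinate. -/
@[ext] structure Pt where
  c : T.V ⊕ T.E
  a : ℝ
  ok : Ok c a

instance : MulAction G T.Pt where
  smul g p := ⟨g • p.c, p.a, by
    obtain ⟨c, a, h⟩ := p
    cases c <;> exact h⟩
  one_smul p := Pt.ext (one_smul G p.c) rfl
  mul_smul g h p := Pt.ext (mul_smul g h p.c) rfl

variable {T}

theorem smul_c (g : G) (p : T.Pt) : (g • p).c = g • p.c := rfl
theorem smul_a (g : G) (p : T.Pt) : (g • p).a = p.a := rfl

/-- A vertex. -/
def vx (v : T.V) : T.Pt := ⟨inl v, 1, rfl⟩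

/-- The closed cells. -/
noncomputable def pt : T.V ⊕ T.E → ℝ → T.Pt
  | inl v, _ => vx v
  | inr e, a => if h : |a| < 1 then ⟨inr e, a, h⟩ else if a < 0 then vx (T.s e) else vx (T.t e)

theorem pt_s (e : T.E) {a : ℝ} (h : a ≤ -1) : pt (inr e) a = vx (T.s e) := by
  have h1 : ¬ |a| < 1 := fun h' => by linarith [(abs_lt.1 h').1]
  simp only [pt, dif_neg h1, if_pos (show a < 0 by linarith)]

theorem pt_t (e : T.E) {a : ℝ} (h : 1 ≤ a) : pt (inr e) a = vx (T.t e) := by
  have h1 : ¬ |a| < 1 := fun h' => by linarith [(abs_lt.1 h').2]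
  simp only [pt, dif_neg h1, if_neg (show ¬ a < 0 by linarith)]

theorem pt_in (e : T.E) {a : ℝ} (h : |a| < 1) : pt (inr e) a = ⟨inr e, a, h⟩ := by
  simp only [pt, dif_pos h]

theorem pt_cases (e : T.E) (a : ℝ) : (a ≤ -1 ∧ pt (inr e) a = vx (T.s e) ∧ cl a = -1) ∨
    (1 ≤ a ∧ pt (inr e) a = vx (T.t e) ∧ cl a = 1) ∨
    ∃ h : |a| < 1, pt (inr e) a = ⟨inr e, a, h⟩ ∧ cl a = a := by
  rcases le_or_gt a (-1) with h | h
  · exact .inl ⟨h, pt_s e h, by rw [cl, min_eq_right (by linarith), max_eq_left h]⟩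
  rcases le_or_gt 1 a with h' | h'
  · exact .inr (.inl ⟨h', pt_t e h', by rw [cl, min_eq_left h', max_eq_right (by norm_num)]⟩)
  · exact .inr (.inr ⟨abs_lt.2 ⟨h, h'⟩, pt_in e _, by
      rw [cl, min_eq_right h'.le, max_eq_right h.le]⟩)

theorem pt_self (p : T.Pt) : pt p.c p.a = p := by
  obtain ⟨c, a, h⟩ := p
  cases c with
  | inl v => exact Pt.ext rfl (show (1 : ℝ) = a from h.symm)
  | inr e => exact pt_in e h

theorem pt_cl (σ : T.V ⊕ T.E) (a : ℝ) : pt σ (cl a) = pt σ a := by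
  cases σ with
  | inl v => rfl
  | inr e =>
    rcases pt_cases e a with ⟨-, h1, h2⟩ | ⟨-, h1, h2⟩ | ⟨-, -, h2⟩
    · rw [h1, h2, pt_s e le_rfl]
    · rw [h1, h2, pt_t e le_rfl]
    · rw [h2]

theorem smul_pt (g : G) (σ : T.V ⊕ T.E) (a : ℝ) : g • pt σ a = pt (g • σ) a := by
  cases σ with
  | inl v => rfl
  | inr e =>
    rw [Sum.smul_inr]
    rcases pt_cases e a with ⟨h, h1, -⟩ | ⟨h, h1, -⟩ | ⟨h, h1, -⟩
    · rw [h1, pt_s _ h, T.s_smul]; rfl
    · rw [h1, pt_t _ h, T.t_smul]; rfl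
    · rw [h1, pt_in _ h]; rfl

theorem cont_abs (σ : T.V ⊕ T.E) : Continuous fun a => |(pt σ a).a| := by
  cases σ with
  | inl v => exact continuous_const (y := |(1 : ℝ)|)
  | inr e =>
    refine cont_cl.abs.congr fun a => ?_
    rcases pt_cases e a with ⟨-, h1, h2⟩ | ⟨-, h1, h2⟩ | ⟨_, h1, h2⟩ <;> simp [h1, h2, vx]

theorem cont_w (σ : T.V ⊕ T.E) : Continuous fun a => (pt σ a).a * (1 - |(pt σ a).a|) := by
  cases σ with
  | inl v => exact continuous_const (y := (1 : ℝ) * (1 - |(1 : ℝ)|))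
  | inr e =>
    refine (cont_cl.mul ((continuous_const (y := (1 : ℝ))).sub cont_cl.abs)).congr fun a => ?_
    rcases pt_cases e a with ⟨-, h1, h2⟩ | ⟨-, h1, h2⟩ | ⟨_, h1, h2⟩ <;> simp [h1, h2, vx]

theorem isRight_iff (p : T.Pt) : p.c.isRight = true ↔ |p.a| < 1 := by
  obtain ⟨c, a, h⟩ := p
  cases c with
  | inl v => obtain rfl : a = 1 := h; simp
  | inr e => exact iff_of_true rfl h

theorem a_eq {p q : T.Pt} (h1 : |p.a| = |q.a|)
    (h2 : p.a * (1 - |p.a|) = q.a * (1 - |q.a|)) : p.a = q.a := by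
  obtain ⟨c, a, h⟩ := p
  obtain ⟨c', a', h'⟩ := q
  simp only at h1 h2 ⊢
  by_cases h3 : |a| < 1
  · rw [← h1] at h2
    exact mul_right_cancel₀ (by linarith) h2
  · cases c with
    | inr e => exact (h3 h).elim
    | inl v =>
      cases c' with
      | inr e => exact (h3 (h1 ▸ h')).elim
      | inl v' => exact (show a = 1 from h).trans (show a' = 1 from h').symm

/-- The nearest vertex. -/
noncomputable def near (p : T.Pt) : T.V :=
  Sum.elim id (fun e => if p.a < 0 then T.s e else T.t e) p.c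

/-- Neighbourhoods of the open cells. -/
def N : T.V ⊕ T.E → Set T.Pt
  | inl v => {p | near p = v ∧ p.a ≠ 0}
  | inr e => {p | p.c = inr e}

theorem mem_N (p : T.Pt) : p ∈ N p.c := by
  obtain ⟨c, a, h⟩ := p
  cases c with
  | inl v => obtain rfl : a = 1 := h; exact ⟨rfl, one_ne_zero⟩
  | inr e => rfl

theorem near_smul (g : G) (p : T.Pt) : near (g • p) = g • near p := by
  obtain ⟨c, a, h⟩ := p
  cases c with
  | inl v => rfl
  | inr e =>
    show (if a < 0 then T.s (g • e) else T.t (g • e)) = g • (if a < 0 then T.s e else T.t e)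
    split_ifs
    exacts [T.s_smul g e, T.t_smul g e]

theorem N_smul (g : G) {τ : T.V ⊕ T.E} {p : T.Pt} (h : p ∈ N τ) : g • p ∈ N (g • τ) := by
  cases τ with
  | inl v => exact ⟨(near_smul g p).trans (congrArg (g • ·) h.1), h.2⟩
  | inr e => exact congrArg (g • ·) (show p.c = inr e from h)

theorem N_uniq {τ τ' : T.V ⊕ T.E} {p : T.Pt} (h : p ∈ N τ) (h' : p ∈ N τ')
    (e : τ.isRight = τ'.isRight) : τ = τ' := by
  cases τ <;> cases τ'
  · exact congrArg inl (h.1.symm.trans h'.1)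
  · simp at e
  · simp at e
  · exact (show p.c = _ from h).symm.trans h'

theorem N_open (σ τ : T.V ⊕ T.E) : IsOpen (pt σ ⁻¹' N τ) := by
  cases σ with
  | inl v => exact isOpen_const (p := vx v ∈ N τ)
  | inr e =>
    cases τ with
    | inl v =>
      have : pt (inr e) ⁻¹' N (inl v) = ({a | T.s e = v} ∩ Iio 0) ∪ ({a | T.t e = v} ∩ Ioi 0) := by
        ext a
        simp only [mem_preimage, N, mem_setOf_eq, mem_union, mem_inter_iff, mem_Iio, mem_Ioi]
        rcases pt_cases e a with ⟨h, h1, -⟩ | ⟨h, h1, -⟩ | ⟨h, h1, -⟩ <;> rw [h1]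
        · simp [near, vx, show a < 0 by linarith, show ¬ 0 < a by linarith]
        · simp [near, vx, show 0 < a by linarith, show ¬ a < 0 by linarith]
        · rcases lt_trichotomy a 0 with h2 | rfl | h2
          · simp [near, h2, h2.ne, h2.not_gt]
          · simp
          · simp [near, h2, h2.ne', h2.not_gt]
      rw [this]
      exact (isOpen_const.inter isOpen_Iio).union (isOpen_const.inter isOpen_Ioi)
    | inr e' =>
      have : pt (inr e) ⁻¹' N (inr e') = {a | e = e'} ∩ {a | |a| < 1} := by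
        ext a
        simp only [mem_preimage, N, mem_setOf_eq, mem_inter_iff]
        rcases pt_cases e a with ⟨h, h1, -⟩ | ⟨h, h1, -⟩ | ⟨h, h1, -⟩ <;> rw [h1]
        · simp [vx, abs_lt, h]
        · simp [vx, abs_lt, h]
        · simp [h]
      rw [this]
      exact isOpen_const.inter (isOpen_lt continuous_abs continuous_const)

end GT

end Vale.Agent.P173G
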